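import Vale.Agent.P092.H35.Mx.MinT
import Vale.Agent.P092.UN.ClsL
import Vale.Agent.P092.UN.StL

/-!
P092, [MIX] (helper35): the minimal condition on centralisers for the groups `IsLieG`, `TypeL`.
-/

namespace Vale.Agent.P092.H35.Mx

theorem minC_isLieG {G : Type} [Group G] [TopologicalSpace G] (h : UN.IsLieG G) : MinC G := by
  obtain ⟨k, _, -, -, -, h⟩ := h
  exact minC_isLie h

theorem minC_typeL {G : Type} [Group G] [TopologicalSpace G] (h : UN.TypeL G) : MinC G := by
  obtain ⟨k, _, -, -, -, h⟩ := h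
  exact minC_isLie h

end Vale.Agent.P092.H35.Mx
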