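import Vale.Agent.P092.H35.Mx.MinC
import Vale.Agent.P092.H35.Rp.Cls

/-!
P092, [MIX] (helper35): the minimal condition on centralisers for groups of automorphisms of Lie
algebras and for subgroups of `PGL_n(k)`.
-/

set_option linter.all false

namespace Vale.Agent.P092.H35.Mx

/-- groups of automorphisms of a simple Lie algebra -/
theorem minC_isLie {k G : Type} [Field k] [TopologicalSpace k] [Group G] [TopologicalSpace G]
    (h : H35.Rp.IsLie k G) : MinC G := by
  obtain ⟨L, iL, iA, n, b, ρ, -, -, -, -, he⟩ := h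
  haveI : Module.Finite k L := Module.Finite.of_basis b
  refine minC_of_linear (F := k) (A := Module.End k L) ρ fun g g' e => he.injective ?_
  funext i j
  rw [e]

/-- the adjoint representation of `GL_n(k)` -/
noncomputable def ad (k : Type) [Field k] (n : ℕ) :
    GL (Fin n) k →* Module.End k (Matrix (Fin n) (Fin n) k) where
  toFun g := (LinearMap.mulLeft k g.1).comp (LinearMap.mulRight k g⁻¹.1)
  map_one' := by
    ext1 X
    simp
  map_mul' g h := by
    refine LinearMap.ext fun X => ?_
    simp only [LinearMap.comp_apply, LinearMap.mulLeft_apply, LinearMap.mulRight_apply,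
      Module.End.mul_apply, mul_inv_rev, Units.val_mul, mul_assoc]

theorem ad_apply {k : Type} [Field k] {n : ℕ} (g : GL (Fin n) k) (X : Matrix (Fin n) (Fin n) k) :
    ad k n g X = g.1 * (X * g⁻¹.1) := rfl

/-- `PGL_n(k)`, any field `k` -/
theorem minC_pgl (k : Type) [Field k] (n : ℕ) :
    MinC (GL (Fin n) k ⧸ Subgroup.center (GL (Fin n) k)) := by
  have h1 : ∀ g ∈ Subgroup.center (GL (Fin n) k), ad k n g = 1 := fun g hg => by
    refine LinearMap.ext fun X => ?_
    rw [ad_apply, Module.End.one_apply]
    -- a central matrix is scalar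
    have h2 : ∀ Y : Matrix (Fin n) (Fin n) k, g.1 * Y = Y * g.1 := fun Y => by
      obtain ⟨a, ha⟩ := Matrix.GeneralLinearGroup.mem_center_iff_val_mem_range_scalar.1 hg
      rw [← ha]
      exact (Matrix.scalar_commute a (fun r => Commute.all a r) Y).eq
    rw [← mul_assoc, h2 X, mul_assoc]
    have h3 : g.1 * g⁻¹.1 = 1 := by rw [← Units.val_mul, mul_inv_cancel, Units.val_one]
    rw [h3, mul_one]
  refine minC_of_linear (F := k) (A := Module.End k (Matrix (Fin n) (Fin n) k))
    (QuotientGroup.lift _ (ad k n) h1) ?_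
  rw [injective_iff_map_eq_one]
  intro x hx
  obtain ⟨g, rfl⟩ := QuotientGroup.mk_surjective x
  refine (QuotientGroup.eq_one_iff g).2 (Subgroup.mem_center_iff.2 fun h => ?_)
  have h2 : ad k n g = 1 := hx
  have h3 : g.1 * (h.1 * g⁻¹.1) = h.1 := by rw [← ad_apply, h2]; rfl
  have h4 : g * (h * g⁻¹) = h := Units.ext h3
  calc h * g = g * (h * g⁻¹) * g := by rw [h4]
    _ = g * h := by group

/-- groups with an injective homomorphism to `PGL_n(k)` -/
theorem minC_of_pgl {k G : Type} [Field k] [Group G] {n : ℕ}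
    (ψ : G →* GL (Fin n) k ⧸ Subgroup.center (GL (Fin n) k)) (hψ : Function.Injective ψ) :
    MinC G :=
  (minC_pgl k n).of_injective ψ hψ

end Vale.Agent.P092.H35.Mx
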