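import Mathlib

/-!
P092, [MIX] (helper35): the minimal condition on centralisers.
-/

set_option linter.all false

namespace Vale.Agent.P092.H35.Mx

/-- every set has the same centraliser as a finite subset of it -/
def MinC (G : Type) [Group G] : Prop :=
  ∀ K : Set G, ∃ S : Finset G, (S : Set G) ⊆ K ∧
    ∀ g, (∀ s ∈ S, g * s = s * g) → ∀ k ∈ K, g * k = k * g

/-- subgroups -/
theorem MinC.of_injective {G H : Type} [Group G] [Group H] (h : MinC H) (f : G →* H)
    (hf : Function.Injective f) : MinC G := by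
  classical
  intro K
  obtain ⟨S, hS, hS'⟩ := h (f '' K)
  refine ⟨S.preimage f hf.injOn, fun s hs => ?_, fun g hg k hk => ?_⟩
  · obtain ⟨k, hk, e⟩ := hS (Finset.mem_preimage.1 hs)
    rwa [← hf e]
  · refine hf ?_
    rw [map_mul, map_mul]
    refine hS' (f g) (fun s hs => ?_) _ ⟨k, hk, rfl⟩
    obtain ⟨x, hx, rfl⟩ := hS hs
    rw [← map_mul, ← map_mul, hg x (Finset.mem_preimage.2 hs)]

/-- linear groups -/
theorem minC_of_linear {G : Type} [Group G] {F A : Type} [Field F] [Ring A] [Algebra F A]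
    [FiniteDimensional F A] (ρ : G →* A) (hρ : Function.Injective ρ) : MinC G := by
  classical
  intro K
  obtain ⟨Z, hZ⟩ : ∃ Z : Finset G → Submodule F A, ∀ S x,
      x ∈ Z S ↔ ∀ s ∈ S, x * ρ s = ρ s * x := by
    refine ⟨fun S => (Subalgebra.centralizer F (ρ '' (S : Set G))).toSubmodule, fun S x => ?_⟩
    rw [Subalgebra.mem_toSubmodule, Subalgebra.mem_centralizer_iff]
    constructor
    · intro h s hs
      exact (h _ ⟨s, hs, rfl⟩).symm
    · rintro h _ ⟨s, hs, rfl⟩
      exact (h s hs).symm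
  have hex : ∃ n : ℕ, ∃ S : Finset G, (S : Set G) ⊆ K ∧ Module.finrank F (Z S) = n :=
    ⟨_, ∅, by simp, rfl⟩
  obtain ⟨S, hS, hn⟩ := Nat.find_spec hex
  refine ⟨S, hS, fun g hg k hk => ?_⟩
  have h1 : Z (insert k S) ≤ Z S := fun x hx => by
    rw [hZ] at hx ⊢
    exact fun s hs => hx s (Finset.mem_insert_of_mem hs)
  have h2 : Nat.find hex ≤ Module.finrank F (Z (insert k S)) :=
    Nat.find_min' hex ⟨_, by
      rw [Finset.coe_insert]
      exact Set.insert_subset hk hS, rfl⟩
  have h3 : Z (insert k S) = Z S := Submodule.eq_of_le_of_finrank_le h1 (by rw [hn]; exact h2)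
  have h4 : ρ g ∈ Z S := by
    rw [hZ]
    intro s hs
    rw [← map_mul, ← map_mul, hg s hs]
  rw [← h3, hZ] at h4
  have h5 := h4 k (Finset.mem_insert_self k S)
  rw [← map_mul, ← map_mul] at h5
  exact hρ h5

end Vale.Agent.P092.H35.Mx
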