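import Vale.Agent.P092.H35.Mx.S2
import Vale.Agent.P092.H35.Mx.MinC
import Vale.Agent.P092.H333.V.Ov2

/-!
P092, [MIX] (helper35): if the projection of a lattice to `G_D` is discrete, its projection to the
product `∏ G b` of the dense places is discrete, too.
-/

set_option linter.all false

open MeasureTheory MeasureTheory.Measure Set Filter Topology
open scoped ENNReal NNReal Pointwise

namespace Vale.Agent.P092.H35.Mx

open Vale.Agent.P092.H515
open Vale.Agent.P092.VR (Ov IsRad FacV)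

/-! ### The abstract statement -/

section abs

variable {Γ B : Type} [Group Γ] [Fintype B] {G : B → Type} [∀ b, Group (G b)]
  [∀ b, TopologicalSpace (G b)] [∀ b, IsTopologicalGroup (G b)] [∀ b, T2Space (G b)]
  {R : ∀ b, Subgroup (G b)} [∀ b, (R b).Normal]

/-- Near one, the image of `Γ` lies in the radical. -/
theorem near (q : Γ →* ∀ b, G b) (K : Subgroup Γ) (hK : K.Normal) (hfin : ∀ b, Finite (R b))
    (hF : ∀ b, FacV (G b ⧸ R b)) (hnc : ∀ b, ¬ IsCompact (univ : Set (G b ⧸ R b)))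
    (hm : ∀ b, MinC (G b)) (hd : ∀ b, DenseRange fun g => q g b)
    (h1 : ∃ U ∈ 𝓝 (1 : ∀ b, G b), ∀ k ∈ K, q k ∈ U → q k = 1)
    (h2 : ∃ C : Set (∀ b, G b), IsCompact C ∧ ∀ y, ∃ n ∈ K, q (n * y) ∈ C) :
    ∃ U ∈ 𝓝 (1 : ∀ b, G b), ∀ g, q g ∈ U → ∀ b, q g b ∈ R b := by
  classical
  obtain ⟨U₀, hU₀, hU₀'⟩ := h1
  obtain ⟨C, hC, hC'⟩ := h2
  -- finitely many elements
  have h3 : ∀ b, ∃ S : Finset Γ, (∀ s ∈ S, s ∈ K) ∧
      ∀ g : G b, (∀ s ∈ S, g * q s b = q s b * g) → ∀ k ∈ K, g * q k b = q k b * g := fun b => by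
    obtain ⟨S, hS, hS'⟩ := hm b ((fun g => q g b) '' (K : Set Γ))
    have h4 : ∀ s : S, ∃ k ∈ K, q k b = s.1 := fun s => hS s.2
    choose κ hκ hκ' using h4
    refine ⟨S.attach.image κ, fun s hs => ?_, fun g hg k hk => ?_⟩
    · obtain ⟨x, -, rfl⟩ := Finset.mem_image.1 hs
      exact hκ x
    · refine hS' g (fun s hs => ?_) _ ⟨k, hk, rfl⟩
      have h5 := hg (κ ⟨s, hs⟩) (Finset.mem_image_of_mem _ (Finset.mem_attach _ _))
      rwa [hκ'] at h5
  choose S hS hS' using h3
  -- the neighbourhood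
  have h4 : ∀ s : Γ, {g : ∀ b, G b | g * q s * g⁻¹ * (q s)⁻¹ ∈ U₀} ∈ 𝓝 (1 : ∀ b, G b) := fun s => by
    have hc : Continuous fun g : ∀ b, G b => g * q s * g⁻¹ * (q s)⁻¹ := by fun_prop
    refine hc.continuousAt.preimage_mem_nhds ?_
    have e : (1 : ∀ b, G b) * q s * (1 : ∀ b, G b)⁻¹ * (q s)⁻¹ = 1 := by group
    rwa [e]
  refine ⟨⋂ s ∈ Finset.univ.biUnion S, {g | g * q s * g⁻¹ * (q s)⁻¹ ∈ U₀},
    (Filter.biInter_finset_mem _).2 fun s _ => h4 s, fun g hg b => ?_⟩
  have h5 : ∀ s ∈ S b, q g b * q s b = q s b * q g b := fun s hs => by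
    have h6 : q g * q s * (q g)⁻¹ * (q s)⁻¹ ∈ U₀ :=
      Set.mem_iInter₂.1 hg s (Finset.mem_biUnion.2 ⟨b, Finset.mem_univ _, hs⟩)
    have e : q g * q s * (q g)⁻¹ * (q s)⁻¹ = q (g * s * g⁻¹ * s⁻¹) := by
      simp only [map_mul, map_inv]
    rw [e] at h6
    have h7 := hU₀' _ (K.mul_mem (hK.conj_mem s (hS b s hs) g) (K.inv_mem (hS b s hs))) h6
    rw [← e, mul_inv_eq_one, mul_inv_eq_iff_eq_mul] at h7
    exact congrFun h7 b
  have h6 := hS' b (q g b) h5
  -- the closure
  obtain ⟨L, hL⟩ : ∃ L : Set (G b), L = closure ((fun g => q g b) '' (K : Set Γ)) := ⟨_, rfl⟩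
  have hLc : IsClosed L := by rw [hL]; exact isClosed_closure
  have hLK : ∀ k ∈ K, q k b ∈ L := fun k hk => by
    rw [hL]
    exact subset_closure ⟨k, hk, rfl⟩
  have hLn : ∀ x, ∀ l ∈ L, x * l * x⁻¹ ∈ L := by
    have k1 : ∀ (y : Γ), ∀ l ∈ L, q y b * l * (q y b)⁻¹ ∈ L := fun y l hl => by
      rw [hL] at hl ⊢
      have hc : Continuous fun l : G b => q y b * l * (q y b)⁻¹ := by fun_prop
      refine map_mem_closure (f := fun l : G b => q y b * l * (q y b)⁻¹) hc hl ?_
      rintro _ ⟨k, hk, rfl⟩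
      refine ⟨y * k * y⁻¹, hK.conj_mem k hk y, ?_⟩
      simp only [map_mul, map_inv, Pi.mul_apply, Pi.inv_apply]
    intro x l hl
    have hc : Continuous fun x : G b => x * l * x⁻¹ := by fun_prop
    have k2 : IsClosed {x : G b | x * l * x⁻¹ ∈ L} := hLc.preimage hc
    have k3 : {x : G b | x * l * x⁻¹ ∈ L} = univ := by
      rw [← k2.closure_eq]
      refine Dense.closure_eq ((hd b).mono ?_)
      rintro _ ⟨y, rfl⟩
      exact k1 y l hl
    have k4 : x ∈ {x : G b | x * l * x⁻¹ ∈ L} := by rw [k3]; trivial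
    exact k4
  have hZ : ∀ l ∈ L, q g b * l = l * q g b := fun l hl => by
    have k1 : IsClosed {l : G b | q g b * l = l * q g b} := isClosed_eq (by fun_prop) (by fun_prop)
    have k2 : L ⊆ {l : G b | q g b * l = l * q g b} := by
      rw [hL]
      refine closure_minimal ?_ k1
      rintro _ ⟨k, hk, rfl⟩
      exact h6 k hk
    exact k2 hl
  -- the two commuting normal sets
  obtain ⟨π, hπ⟩ : ∃ π : G b →* G b ⧸ R b, π = QuotientGroup.mk' (R b) := ⟨_, rfl⟩
  have hπs : Function.Surjective π := by rw [hπ]; exact QuotientGroup.mk'_surjective _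
  have hπ1 : ∀ x, π x = 1 → x ∈ R b := fun x hx => by
    rw [hπ] at hx
    exact (QuotientGroup.eq_one_iff x).1 hx
  rcases (hF b).pair (π '' {z | ∀ l ∈ L, z * l = l * z}) (π '' L) (by
      rintro s _ ⟨z, hz, rfl⟩
      obtain ⟨x, rfl⟩ := hπs s
      refine ⟨x * z * x⁻¹, fun l hl => ?_, by simp only [map_mul, map_inv]⟩
      have e := hz (x⁻¹ * l * x) (by simpa using hLn x⁻¹ l hl)
      have e2 : x * z * x⁻¹ * l = x * (z * (x⁻¹ * l * x)) * x⁻¹ := by group
      rw [e2, e]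
      group) (by
      rintro s _ ⟨l, hl, rfl⟩
      obtain ⟨x, rfl⟩ := hπs s
      exact ⟨x * l * x⁻¹, hLn x l hl, by simp only [map_mul, map_inv]⟩) (by
      rintro _ ⟨z, hz, rfl⟩ _ ⟨l, hl, rfl⟩
      rw [← map_mul, hz l hl, map_mul]) with h7 | h7
  · exact hπ1 _ (h7 ⟨_, hZ, rfl⟩)
  · exfalso
    haveI := hfin b
    have hRc : IsClosed (R b : Set (G b)) := (Set.toFinite _).isClosed
    haveI : T2Space (G b ⧸ R b) := inferInstance
    have hπc : Continuous π := by rw [hπ]; exact QuotientGroup.continuous_mk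
    have k1 : ∀ y : Γ, π (q y b) ∈ π '' ((fun f : ∀ b, G b => f b) '' C) := fun y => by
      obtain ⟨n, hn, hn'⟩ := hC' y
      refine ⟨q (n * y) b, ⟨_, hn', rfl⟩, ?_⟩
      have k2 : π (q n b) = 1 := h7 ⟨_, hLK n hn, rfl⟩
      rw [map_mul, Pi.mul_apply, map_mul, k2, one_mul]
    have k2 : IsCompact (π '' ((fun f : ∀ b, G b => f b) '' C)) :=
      (hC.image (continuous_apply b)).image hπc
    refine hnc b ?_
    have k3 : π '' ((fun f : ∀ b, G b => f b) '' C) = univ := by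
      rw [← k2.isClosed.closure_eq]
      refine Dense.closure_eq ((hπs.denseRange.comp (hd b) hπc).mono ?_)
      rintro _ ⟨y, rfl⟩
      exact k1 y
    rw [← k3]
    exact k2

end abs

/-! ### Quotients by finite groups -/

section quo

variable {G : Type} [Group G] [TopologicalSpace G] [IsTopologicalGroup G] {R : Subgroup G}

theorem proper_mk (hR : Finite R) : IsProperMap (QuotientGroup.mk : G → G ⧸ R) := by
  have hc : IsCompact (R : Set G) := (Set.toFinite _).isCompact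
  refine isProperMap_iff_isClosedMap_and_compact_fibers.2 ⟨QuotientGroup.continuous_mk,
    QuotientGroup.isClosedMap_coe hc, fun x => ?_⟩
  obtain ⟨x, rfl⟩ := QuotientGroup.mk_surjective x
  have e : (QuotientGroup.mk : G → G ⧸ R) ⁻¹' {(x : G ⧸ R)} = (fun y => x * y) '' (R : Set G) := by
    ext y
    rw [mem_preimage, mem_singleton_iff, eq_comm, QuotientGroup.eq]
    constructor
    · intro h
      exact ⟨x⁻¹ * y, h, by group⟩
    · rintro ⟨z, hz, rfl⟩
      have : x⁻¹ * (x * z) = z := by group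
      rw [this]
      exact hz
  rw [e]
  exact hc.image (continuous_const_mul x)

end quo

/-! ### Lattices -/

section lat

variable {Γ GD B : Type} [Group Γ] [Fintype B] [Group GD] [TopologicalSpace GD]
  [IsTopologicalGroup GD] [LocallyCompactSpace GD] [SecondCountableTopology GD] [T2Space GD]
  {M G : B → Type} [∀ b, Group (M b)] [∀ b, TopologicalSpace (M b)]
  [∀ b, Group (G b)] [∀ b, TopologicalSpace (G b)] {φ : ∀ b, M b →* G b} {r : B → ℕ}
  {R : ∀ b, Subgroup (G b)} [∀ b, (R b).Normal]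

/-- **The projection to the dense places is discrete.** -/
theorem disc_near (qD : Γ →* GD) (qN : Γ →* ∀ b, G b) (hO : ∀ b, Ov (φ b) (r b))
    (hR : ∀ b, IsRad (φ b) (R b)) (hl : IsLattice (qD.prod qN).range)
    (hD : DiscreteTopology (Set.range qD)) (hm : ∀ b, MinC (G b))
    (hd : ∀ b, DenseRange fun g => qN g b) :
    ∃ U ∈ 𝓝 (1 : ∀ b, G b), ∀ g, qN g ∈ U → ∀ b, qN g b ∈ R b := by
  haveI := fun b => (hO b).top
  haveI := fun b => H333.V.Ov.lc (hO b)
  haveI := fun b => H333.V.Ov.t2 (hO b)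
  haveI := fun b => H333.V.Ov.sc (hO b)
  obtain ⟨C, hC, hC'⟩ := cob_prod qD qN hl hD
  obtain ⟨U, hU, hU'⟩ := nhd_of_disc (S := ((qD.prod qN).range : Set (GD × ∀ b, G b)))
    (one_mem _) hl.disc
  refine near qN qD.ker inferInstance (fun b => (hR b).fin) (fun b => H333.V.facV_quo (hO b) (hR b))
    (fun b => H333.V.noncpt_quo (hO b) (hR b)) hm hd ?_ ⟨C, hC, hC'⟩
  have h1 : U ∈ 𝓝 ((1 : GD), (1 : ∀ b, G b)) := hU
  rw [nhds_prod_eq, mem_prod_iff] at h1
  obtain ⟨U₁, hU₁, U₂, hU₂, h2⟩ := h1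
  refine ⟨U₂, hU₂, fun k hk hk2 => ?_⟩
  have h3 : qD k = 1 := hk
  have h4 : (qD.prod qN) k ∈ U := h2 ⟨by
    change qD k ∈ U₁
    rw [h3]
    exact mem_of_mem_nhds hU₁, hk2⟩
  have h5 := hU' _ ⟨k, rfl⟩ h4
  exact congrArg Prod.snd h5

/-- **The projection to the product of the dense places is discrete.** -/
theorem disc_G (qD : Γ →* GD) (qN : Γ →* ∀ b, G b) (hO : ∀ b, Ov (φ b) (r b))
    (hR : ∀ b, IsRad (φ b) (R b)) (hl : IsLattice (qD.prod qN).range)
    (hD : DiscreteTopology (Set.range qD)) (hm : ∀ b, MinC (G b))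
    (hd : ∀ b, DenseRange fun g => qN g b) (C : Set (∀ b, G b)) (hC : IsCompact C) :
    (Set.range qN ∩ C).Finite := by
  classical
  haveI := fun b => (hO b).top
  haveI := fun b => H333.V.Ov.lc (hO b)
  haveI := fun b => H333.V.Ov.t2 (hO b)
  haveI := fun b => H333.V.Ov.sc (hO b)
  obtain ⟨U, hU, hU'⟩ := disc_near qD qN hO hR hl hD hm hd
  -- the range is discrete
  obtain ⟨F, hF⟩ : ∃ F : Set (∀ b, G b), F = Set.pi Set.univ fun b => (R b : Set (G b)) := ⟨_, rfl⟩
  have hFf : F.Finite := by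
    rw [hF]
    refine Set.Finite.pi fun b => ?_
    haveI := (hR b).fin
    exact Set.toFinite (R b : Set (G b))
  obtain ⟨V, hV, hVo, h1V⟩ := mem_nhds_iff.1
    (inter_mem hU ((hFf.subset Set.diff_subset : (F \ {1}).Finite).isClosed.isOpen_compl.mem_nhds
      (fun h => h.2 rfl)))
  have h1 : ∀ g, qN g ∈ V → qN g = 1 := fun g hg => by
    have h2 := hV hg
    by_contra h3
    refine h2.2 ⟨?_, h3⟩
    rw [hF]
    exact fun b _ => hU' g h2.1 b
  have hdis : DiscreteTopology qN.range := by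
    refine discreteTopology_of_isOpen_singleton_one ?_
    have h2 : ({1} : Set qN.range) = Subtype.val ⁻¹' V := by
      ext x
      constructor
      · rintro rfl
        exact h1V
      · intro hx
        obtain ⟨_, g, rfl⟩ := x
        exact Subtype.ext (h1 g hx)
    rw [h2]
    exact hVo.preimage continuous_subtype_val
  have h3 := finite_of_compact qN.range hC
  refine (h3.image Subtype.val).subset ?_
  rintro x ⟨⟨g, rfl⟩, hx⟩
  exact ⟨⟨qN g, g, rfl⟩, hx, rfl⟩

/-- **The projection to the product of the dense places modulo their radicals is discrete.** -/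
theorem disc_T (qD : Γ →* GD) (qN : Γ →* ∀ b, G b) (hO : ∀ b, Ov (φ b) (r b))
    (hR : ∀ b, IsRad (φ b) (R b)) (hl : IsLattice (qD.prod qN).range)
    (hD : DiscreteTopology (Set.range qD)) (hm : ∀ b, MinC (G b))
    (hd : ∀ b, DenseRange fun g => qN g b) (C : Set (∀ b, G b ⧸ R b)) (hC : IsCompact C) :
    (Set.range (fun g b => (qN g b : G b ⧸ R b)) ∩ C).Finite := by
  haveI := fun b => (hO b).top
  have h1 : IsCompact (Set.pi Set.univ fun b => (QuotientGroup.mk : G b → G b ⧸ R b) ⁻¹'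
      ((fun f : ∀ b, G b ⧸ R b => f b) '' C)) :=
    isCompact_univ_pi fun b => (proper_mk (hR b).fin).isCompact_preimage
      (hC.image (continuous_apply b))
  refine ((disc_G qD qN hO hR hl hD hm hd _ h1).image fun f b => (f b : G b ⧸ R b)).subset ?_
  rintro x ⟨⟨g, rfl⟩, hx⟩
  exact ⟨qN g, ⟨⟨g, rfl⟩, fun b _ => ⟨_, hx, rfl⟩⟩, rfl⟩

/-- a joint projection is discrete if all its coordinates are -/
theorem disc_pi {J : Type} [Finite J] {P : J → Type} [∀ j, Group (P j)]
    [∀ j, TopologicalSpace (P j)] [∀ j, IsTopologicalGroup (P j)] (q : Γ →* ∀ j, P j)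
    (h : ∀ j, DiscreteTopology (Set.range fun g => q g j)) : DiscreteTopology (Set.range q) := by
  have h1 : ∀ j, ∃ U ∈ 𝓝 (1 : P j), ∀ g, q g j ∈ U → q g j = 1 := fun j => by
    obtain ⟨U, hU, hU'⟩ := nhd_of_disc (S := Set.range fun g => q g j)
      ⟨1, by change q 1 j = 1; rw [map_one]; rfl⟩ (h j)
    exact ⟨U, hU, fun g hg => hU' _ ⟨g, rfl⟩ hg⟩
  choose U hU hU' using h1
  have h2 : DiscreteTopology q.range := by
    refine discreteTopology_of_isOpen_singleton_one ?_
    have h3 : Set.pi Set.univ U ∈ 𝓝 (1 : ∀ j, P j) :=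
      set_pi_mem_nhds Set.finite_univ fun j _ => hU j
    obtain ⟨V, hV, hVo, h1V⟩ := mem_nhds_iff.1 h3
    have h2 : ({1} : Set q.range) = Subtype.val ⁻¹' V := by
      ext x
      constructor
      · rintro rfl
        exact h1V
      · intro hx
        obtain ⟨_, g, rfl⟩ := x
        exact Subtype.ext (funext fun j => hU' j g (hV hx j trivial))
    rw [h2]
    exact hVo.preimage continuous_subtype_val
  exact h2

end lat

end Vale.Agent.P092.H35.Mx
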