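import Vale.Agent.P092.UN.StM
import Vale.Agent.P092.H103.Lat3

/-!
P092, project MIX (helper35): a group with the property `UN.PropT` is finitely generated.
-/

set_option linter.all false

namespace Vale.Agent.P092.H35.Mx

open Vale.Agent.P092.H885 (URep IsKazhdanPair)

/-- `UN.PropT` gives a Kazhdan pair. -/
theorem kpair_of_propT {Γ : Type} [Group Γ] (h : UN.PropT Γ) :
    ∃ (Q : Finset Γ) (ε : ℝ), IsKazhdanPair Γ Q ε := by
  obtain ⟨Q, κ, hκ, hQ⟩ := h
  refine ⟨Q, κ, hκ, fun H _ _ _ π hinv v => ?_⟩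
  exact hQ H (H103.URep.op π) (fun g v => π.norm_act g v) (fun v hv => hinv v hv) v

/-- A group with the property `UN.PropT` is finitely generated. -/
theorem fg_of_propT {Γ : Type} [Group Γ] (h : UN.PropT Γ) : Group.FG Γ := by
  obtain ⟨Q, ε, hK⟩ := kpair_of_propT h
  exact ⟨⟨Q, H103.kaz_gen hK⟩⟩

end Vale.Agent.P092.H35.Mx
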