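import Vale.Agent.P092.H35.Mx.Pair
import Vale.Agent.P092.MX.Lift
import Vale.Agent.P092.VR.TopV
import Vale.Agent.P092.VM.Two

/-!
P092, project MIX (helper35), rows M2 + M3: back from the amplified frame to the fibre
(`unamp_false`, `unamp_true`, `kBoth_of`) and the whole premise `MX.KCalAll` (`kcalAll`), from the
calculi upstairs `VM.legs_two` (helper971).
-/

set_option linter.all false

open scoped InnerProductSpace ENNReal ZeroAtInfty
open Filter Topology ContinuousLinearMap MeasureTheory TopologicalSpace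

namespace Vale.Agent.P092.H35.Mx

open Vale.Agent.P092.MX (KCal KLeg KBoth KCalAll)
open Vale.Agent.P092.RC (GG)
open Vale.Agent.P092.H333.Amp

section unamp

variable {E : Type} [Group E] {Γ : Subgroup E} {Q ℋ T : Type} [Group Q] [Fintype Q]
  [NormedAddCommGroup ℋ] [InnerProductSpace ℂ ℋ] [CompleteSpace ℋ] [Group T] [TopologicalSpace T]

/-- A star homomorphism into the operators commuting with the monomial group is `P' ⊗ 1`. -/
theorem exists_unamp {P : C₀(T, ℂ) →⋆ₙₐ[ℂ] (KT Q ℋ →L[ℂ] KT Q ℋ)}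
    (h : ∀ (f : FG Q) ψ, Commute (sg f) (P ψ)) :
    ∃ P' : C₀(T, ℂ) →⋆ₙₐ[ℂ] (ℋ →L[ℂ] ℋ), ∀ ψ, P ψ = H333.Amp.amp (Q := Q) (P' ψ) := by
  have e1 : ∀ ψ, ∃ S : ℋ →L[ℂ] ℋ, P ψ = H333.Amp.amp (Q := Q) S := fun ψ =>
    comm_sg fun f => (h f ψ).eq.symm
  choose f hf using e1
  refine ⟨⟨⟨⟨⟨f, fun c ψ => ?_⟩, ?_, fun ψ φ => ?_⟩, fun ψ φ => ?_⟩, fun ψ => ?_⟩, hf⟩
  · change f (c • ψ) = c • f ψ
    have h1 : P (c • ψ) = c • P ψ := map_smul P c ψ
    rw [hf, hf, ← amp_smul] at h1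
    exact amp_inj h1
  · change f 0 = 0
    have h1 : P 0 = 0 := map_zero P
    rw [hf, ← amp_zero] at h1
    exact amp_inj h1
  · change f (ψ + φ) = f ψ + f φ
    have h1 : P (ψ + φ) = P ψ + P φ := map_add P ψ φ
    rw [hf, hf, hf, ← amp_add] at h1
    exact amp_inj h1
  · change f (ψ * φ) = f ψ * f φ
    have h1 : P (ψ * φ) = P ψ * P φ := map_mul P ψ φ
    rw [hf, hf, hf, ← amp_mul] at h1
    exact amp_inj h1
  · change f (star ψ) = star (f ψ)
    have h1 : P (star ψ) = star (P ψ) := map_star P ψ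
    rw [hf, hf, star_eq_adjoint, adjoint_amp] at h1
    exact amp_inj h1

variable {t : E →* T} {p : Γ →* T} {V A B : Γ →* (ℋ →L[ℂ] ℋ)}

/-- **Back from `ℋ ⊗ ℂ^Q` to `ℋ`**: the first leg (`l = false`). -/
theorem unamp_false {h : ∀ g k, A g * B k = B k * A g}
    {P : C₀(T, ℂ) →⋆ₙₐ[ℂ] (KT Q ℋ →L[ℂ] KT Q ℋ)}
    (hP : QCal t p (av Q V) (lf Γ Q false) (rt Q (pr A B h)) P) :
    ∃ P' : C₀(T, ℂ) →⋆ₙₐ[ℂ] (ℋ →L[ℂ] ℋ), (∀ ψ, P ψ = H333.Amp.amp (Q := Q) (P' ψ)) ∧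
      KCal t p V A B P' := by
  obtain ⟨P', e⟩ := exists_unamp (P := P) fun f ψ => by
    have h1 := hP.cmk (x := ((1, 1), f)) rfl ψ
    have h2 : rt Q (pr A B h) ((1, 1), f) = sg f := by
      rw [rt_apply, pr_apply, map_one, map_one, one_mul, amp_one, one_mul]
    rwa [h2] at h1
  refine ⟨P', e, fun ξ hξ => ?_, fun γ ψ ψ' hψ => ?_, fun γ ψ => ?_, fun γ ψ ψ' hψ => ?_⟩
  · have h1 : (em (1 : Q) ξ : KT Q ℋ) = 0 := by
      refine hP.nd _ fun ψ => ?_
      rw [e, amp_em, hξ ψ, map_zero]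
    have h3 := norm_em (1 : Q) ξ
    rw [h1, norm_zero] at h3
    exact norm_eq_zero.1 h3.symm
  · have h1 := hP.cov ((γ, 1), 1) ψ ψ' hψ
    have e2 : rt Q (pr A B h) ((γ, 1), 1) = amp (A γ) := by
      rw [rt_apply, pr_apply, map_one, mul_one, sg_one, mul_one]
    have e3 : rt Q (pr A B h) ((γ, 1), 1)⁻¹ = amp (A γ⁻¹) := by
      have : (((γ, 1), 1) : XG Γ Q)⁻¹ = ((γ⁻¹, 1), 1) := by simp
      rw [this, rt_apply, pr_apply, map_one, mul_one, sg_one, mul_one]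
    rw [e2, e3, e, e, ← amp_mul, ← amp_mul] at h1
    exact amp_inj h1
  · have h1 := hP.cmk (x := ((1, γ), 1)) rfl ψ
    have e2 : rt Q (pr A B h) ((1, γ), 1) = amp (B γ) := by
      rw [rt_apply, pr_apply, map_one, one_mul, sg_one, mul_one]
    rw [e2, e] at h1
    have h2 := h1.eq
    rw [← amp_mul, ← amp_mul] at h2
    exact amp_inj h2
  · have h1 := hP.vcov γ ψ ψ' hψ
    rw [av_apply, av_apply, e, e, ← amp_mul, ← amp_mul] at h1
    exact amp_inj h1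

/-- **Back from `ℋ ⊗ ℂ^Q` to `ℋ`**: the second leg (`l = true`). -/
theorem unamp_true {h : ∀ g k, A g * B k = B k * A g}
    {P : C₀(T, ℂ) →⋆ₙₐ[ℂ] (KT Q ℋ →L[ℂ] KT Q ℋ)}
    (hP : QCal t p (av Q V) (lf Γ Q true) (rt Q (pr A B h)) P) :
    ∃ P' : C₀(T, ℂ) →⋆ₙₐ[ℂ] (ℋ →L[ℂ] ℋ), (∀ ψ, P ψ = H333.Amp.amp (Q := Q) (P' ψ)) ∧
      KCal t p V B A P' := by
  obtain ⟨P', e⟩ := exists_unamp (P := P) fun f ψ => by
    have h1 := hP.cmk (x := ((1, 1), f)) rfl ψ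
    have h2 : rt Q (pr A B h) ((1, 1), f) = sg f := by
      rw [rt_apply, pr_apply, map_one, map_one, one_mul, amp_one, one_mul]
    rwa [h2] at h1
  refine ⟨P', e, fun ξ hξ => ?_, fun γ ψ ψ' hψ => ?_, fun γ ψ => ?_, fun γ ψ ψ' hψ => ?_⟩
  · have h1 : (em (1 : Q) ξ : KT Q ℋ) = 0 := by
      refine hP.nd _ fun ψ => ?_
      rw [e, amp_em, hξ ψ, map_zero]
    have h3 := norm_em (1 : Q) ξ
    rw [h1, norm_zero] at h3
    exact norm_eq_zero.1 h3.symm
  · have h1 := hP.cov ((1, γ), 1) ψ ψ' hψ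
    have e2 : rt Q (pr A B h) ((1, γ), 1) = amp (B γ) := by
      rw [rt_apply, pr_apply, map_one, one_mul, sg_one, mul_one]
    have e3 : rt Q (pr A B h) ((1, γ), 1)⁻¹ = amp (B γ⁻¹) := by
      have : (((1, γ), 1) : XG Γ Q)⁻¹ = ((1, γ⁻¹), 1) := by simp
      rw [this, rt_apply, pr_apply, map_one, one_mul, sg_one, mul_one]
    rw [e2, e3, e, e, ← amp_mul, ← amp_mul] at h1
    exact amp_inj h1
  · have h1 := hP.cmk (x := ((γ, 1), 1)) rfl ψ
    have e2 : rt Q (pr A B h) ((γ, 1), 1) = amp (A γ) := by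
      rw [rt_apply, pr_apply, map_one, mul_one, sg_one, mul_one]
    rw [e2, e] at h1
    have h2 := h1.eq
    rw [← amp_mul, ← amp_mul] at h2
    exact amp_inj h2
  · have h1 := hP.vcov γ ψ ψ' hψ
    rw [av_apply, av_apply, e, e, ← amp_mul, ← amp_mul] at h1
    exact amp_inj h1

end unamp

open Vale.Agent.P092.H160 (Cmm Ell2)
open Vale.Agent.P092.QT.H156
open Vale.Agent.P092.QT.H156.Sm (Frm Fd Smo ip)
open Vale.Agent.P092.QT.H715.Q (Dbl fl F1 TwS)
open Vale.Agent.P092.PA (Lat)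
open Vale.Agent.P092.VR (FacV)
open Vale.Agent.P092.QT.Q (Esc)

/-! ### The top -/

section top

open Vale.Agent.P092.H103 (AF)
open Vale.Agent.P092.SR (Tri ErgAt)
open Vale.Agent.P092.SR.St (ICC)
open Vale.Agent.P092.H962

/-- A lattice is countable. -/
theorem countable_of_lat {E : Type} [Group E] [TopologicalSpace E] [LocallyCompactSpace E]
    [SecondCountableTopology E] [MeasurableSpace E] {Γ : Subgroup E} {m : Measure E}
    (lat : Lat Γ.subtype m) : Countable Γ := by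
  have h1 : (⋃ n, {v : Γ | Γ.subtype v ∈ compactCovering E n}) = Set.univ := by
    rw [Set.eq_univ_iff_forall]
    intro v
    have h2 : Γ.subtype v ∈ ⋃ n, compactCovering E n := by
      rw [iUnion_compactCovering]
      exact Set.mem_univ _
    obtain ⟨n, hn⟩ := Set.mem_iUnion.1 h2
    exact Set.mem_iUnion.2 ⟨n, hn⟩
  rw [← Set.countable_univ_iff, ← h1]
  exact Set.countable_iUnion fun n => (lat.fin _ (isCompact_compactCovering _ n)).countable

/-- Both legs on the amplified frame give both legs on the fibre. -/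
theorem kBoth_of {J : Type} {k : J → Type} [∀ j, NontriviallyNormedField (k j)] {N : J → ℕ}
    {E : Type} [Group E] [TopologicalSpace E] {Γ : Subgroup E} {I Q ℋ : Type} [Group Q] [Fintype Q]
    [NormedAddCommGroup ℋ] [InnerProductSpace ℂ ℋ] [CompleteSpace ℋ] {T : I → Type}
    [∀ i, Group (T i)] [∀ i, TopologicalSpace (T i)] {ι : ∀ j, GG (k j) (N j) →* E}
    {p : ∀ i, Γ →* T i} {V A B : Γ →* (ℋ →L[ℂ] ℋ)} {h : ∀ g k, A g * B k = B k * A g}
    {th : Bool → ∀ b, E →* T b}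
    {P : Bool → ∀ b, C₀(T b, ℂ) →⋆ₙₐ[ℂ] (KT Q ℋ →L[ℂ] KT Q ℋ)}
    (ct : ∀ l b, Continuous (th l b)) (tr : ∀ l b j g, th l b (ι j g) = 1)
    (q : ∀ l b, QCal (th l b) (p b) (av Q V) (lf Γ Q l) (rt Q (pr A B h)) (P l b))
    (com : ∀ l b l' b' ψ φ, Commute (P l b ψ) (P l' b' φ)) : KBoth ι p V A B := by
  have h1 := fun b => unamp_false (q false b)
  have h2 := fun b => unamp_true (q true b)
  choose P₁ e₁ k₁ using h1
  choose P₂ e₂ k₂ using h2
  have cc : ∀ {S T : ℋ →L[ℂ] ℋ}, Commute (H333.Amp.amp (Q := Q) S) (H333.Amp.amp (Q := Q) T) →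
      Commute S T := by
    intro S T h3
    have h4 := h3.eq
    rw [← amp_mul, ← amp_mul] at h4
    exact amp_inj h4
  refine ⟨th false, th true, P₁, P₂, ⟨ct false, fun j g b => tr false b j g, k₁,
    fun b b' hb ψ φ => ?_⟩, ⟨ct true, fun j g b => tr true b j g, k₂, fun b b' hb ψ φ => ?_⟩,
    fun b b' ψ φ => ?_⟩
  · have h3 := com false b false b' ψ φ
    rw [e₁, e₁] at h3
    exact cc h3
  · have h3 := com true b true b' ψ φ
    rw [e₂, e₂] at h3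
    exact cc h3
  · have h3 := com false b true b' ψ φ
    rw [e₁, e₂] at h3
    exact cc h3

variable {J : Type} {k : J → Type} [∀ j, NontriviallyNormedField (k j)] {N : J → ℕ}
  {E : Type} [Group E] [TopologicalSpace E] [IsTopologicalGroup E] [LocallyCompactSpace E]
  [SecondCountableTopology E] [T2Space E] [MeasurableSpace E] [BorelSpace E] {Γ : Subgroup E}
  {P : Type} [Fintype P] {G : P → Type}
  [∀ i, Group (G i)] [∀ i, TopologicalSpace (G i)] [∀ i, IsTopologicalGroup (G i)]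
  [∀ i, LocallyCompactSpace (G i)] [∀ i, SecondCountableTopology (G i)] [∀ i, T2Space (G i)]
  [∀ i, MeasurableSpace (G i)] [∀ i, BorelSpace (G i)]

/-- **(M2 + M3) in the model of an amplified frame.** -/
theorem kcal_top (B : VR.Q.Blk) {ι : ∀ j, GG (k j) (N j) →* E}
    (hΓ : ∀ g : Γ, g ≠ 1 → Set.Infinite {y : Γ | ∃ h, y = h * g * h⁻¹})
    (p : ∀ i, Γ →* G i) (μ : ∀ i, Measure (G i)) [∀ i, (μ i).IsHaarMeasure]
    [∀ i, (μ i).IsMulRightInvariant]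
    (π : ∀ i, E →* G i) (hπ : ∀ i, Continuous (π i)) (hp : ∀ i (γ : Γ), p i γ = π i γ)
    (hι : ∀ i j g, π i (ι j g) = 1)
    (hsp : ∀ i i', i ≠ i' → ∀ k : G i, ∃ e, π i e = k ∧ π i' e = 1)
    (m : Measure E) (lat : Lat Γ.subtype m)
    (fac : ∀ i, FacV (G i)) (hd : ∀ i, DenseRange (p i)) (he : ∀ i k, i ≠ k → Esc (p i) (p k))
    {Λ I : Type} [Group Λ] [Fintype I] {α : Γ → (Ell2 (I × Λ) →L[ℂ] Ell2 (I × Λ))}
    (hΛ : ∀ s : Λ, s ≠ 1 → Set.Infinite {y : Λ | ∃ h, y = h * s * h⁻¹}) (hα : AF α)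
    (erg : ∀ i, ∀ (β : Γ → (Ell2 (I × Λ) →L[ℂ] Ell2 (I × Λ))) (hβ : AF β),
      ErgC (p i) (V3 hα hα hβ) (A3R hα hα hβ) (B3R hα hα hβ))
    (ne : ∀ i, ∀ (β : Γ → (Ell2 (I × Λ) →L[ℂ] Ell2 (I × Λ))) (hβ : AF β), ∃ j,
      NeC (p j) (p i) (V3 hα hα hβ) (A3R hα hα hβ) (B3R hα hα hβ) (μ j)) :
    KBoth ι p (V3 hα hα hα) (A3R hα hα hα) (B3R hα hα hα) := by
  classical
  haveI := countable_of_lat lat
  obtain ⟨N, hc, h1, h2, ω, ω', hD, hE⟩ := exists_model hΓ hΛ hα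
  have hErg := fun i => hE (p i) (erg i)
  -- nonvanishing on the four frames
  have hS := (flip_AU hα hα hα).symm
  have hW := swap_AU (β := α) (γ := α) hα
  have n1 : ∀ i, ∃ j, NeC (p j) (p i) (V3 hα hα hα) (A3R hα hα hα) (B3R hα hα hα) (μ j) :=
    fun i => ne i α hα
  have n2 : ∀ i, ∃ j, NeC (p j) (p i) (V3 hα hα hα) (B3R hα hα hα) (A3R hα hα hα) (μ j) := by
    intro i
    obtain ⟨j, hj⟩ := n1 i
    exact ⟨j, neC_au hW (swU_V hα hα hα) (swU_A hα hα hα) (swU_B hα hα hα) hj⟩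
  have n3 : ∀ i, ∃ j, NeC (p j) (p i) (A3R hα hα hα) (V3 hα hα hα) (B3R hα hα hα) (μ j) := by
    intro i
    obtain ⟨j, hj⟩ := ne i _ (AF.bar hα)
    exact ⟨j, neC_au hS (flU'_V hα hα hα) (flU'_A hα hα hα) (flU'_B hα hα hα) hj⟩
  have n4 : ∀ i, ∃ j, NeC (p j) (p i) (B3R hα hα hα) (V3 hα hα hα) (A3R hα hα hα) (μ j) := by
    intro i
    obtain ⟨j, hj⟩ := n3 i
    exact ⟨j, neC_au hW (swU_A hα hα hα) (swU_V hα hα hα) (swU_B hα hα hα) hj⟩
  have key : ∃ (P : Bool → ∀ b, C₀(G b, ℂ) →⋆ₙₐ[ℂ]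
        (KT (Multiplicative (ZMod (N + 1))) (HH (PT α α α)) →L[ℂ]
          KT (Multiplicative (ZMod (N + 1))) (HH (PT α α α)))) (th : Bool → ∀ b, E →* G b),
      (∀ l b, Continuous (th l b)) ∧ (∀ l b e, (∀ i, π i e = 1) → th l b e = 1) ∧
      (∀ l b, VM.UCal (av (Multiplicative (ZMod (N + 1))) (V3 hα hα hα))
        (rt (Multiplicative (ZMod (N + 1))) (pr (A3R hα hα hα) (B3R hα hα hα) hc))
        ((p b).comp (lf Γ (Multiplicative (ZMod (N + 1))) l)) Γ.subtype (th l b) (P l b)) ∧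
      ∀ l l' b b' ψ φ, Commute (P l b ψ) (P l' b' φ) := by
    refine VM.legs_two B
      (R := lR (Multiplicative (ZMod (N + 1))) (A3R hα hα hα) (B3R hα hα hα))
      (f := lf Γ (Multiplicative (ZMod (N + 1))))
      (f' := fun _ => lf Γ (Multiplicative (ZMod (N + 1))) false)
      (ρ' := rl (Multiplicative (ZMod (N + 1))) (V3 hα hα hα) (A3R hα hα hα) (B3R hα hα hα) h1 h2)
      (ω := ω) (ω' := ω') p μ m lat hπ hp hsp fac hd he hD ?_ ?_ ?_ ?_ ?_ ?_ ?_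
    · intro g k
      change amp (A3R hα hα hα g) * amp (B3R hα hα hα k) = amp (B3R hα hα hα k) *
        amp (A3R hα hα hα g)
      rw [← amp_mul, hc, amp_mul]
    · rintro ⟨⟨a, b⟩, f⟩
      refine ⟨((1, 1), f), fun l => by cases l <;> rfl, ?_⟩
      change amp (A3R hα hα hα a * B3R hα hα hα b) * sg f = amp (A3R hα hα hα a) *
        amp (B3R hα hα hα b) * (amp (A3R hα hα hα 1 * B3R hα hα hα 1) * sg f)
      rw [map_one, map_one, one_mul, amp_one, one_mul, amp_mul]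
    · intro l
      cases l
      · exact fun g => ⟨((g, 1), 1), rfl⟩
      · exact fun g => ⟨((1, g), 1), rfl⟩
    · intro l i j
      exact QT.H805.f1_of_erg (hD l).fr (hErg i).1
    · intro l i j
      exact QT.H805.f1_of_erg (hD l).fr' ((hErg j).2 l)
    · intro l i
      cases l with
      | false =>
        obtain ⟨j, b, hb, hb0⟩ := n1 i
        exact ⟨j, _, smo_false hb hc ω, amp_ne hb0⟩
      | true =>
        obtain ⟨j, b, hb, hb0⟩ := n2 i
        exact ⟨j, _, smo_true hb hc ω, amp_ne hb0⟩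
    · intro l i
      cases l with
      | false =>
        obtain ⟨j, b, hb, hb0⟩ := n3 i
        exact ⟨j, _, smo_false hb h2 (ω' false), amp_ne hb0⟩
      | true =>
        obtain ⟨j, b, hb, hb0⟩ := n4 i
        exact ⟨j, _, smo_false hb h1 (ω' true), amp_ne hb0⟩
  obtain ⟨PP, th, ct, tr, qc, com⟩ := key
  exact kBoth_of ct (fun l b j g => tr l b _ fun i => hι i j g)
    (fun l b => ⟨(qc l b).nd, (qc l b).cov, (qc l b).vcov⟩) fun l b l' b' => com l l' b b'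

/-- **(M2 + M3): the premise of `MX.exN_of`.** -/
theorem kcalAll (B : VR.Q.Blk) {ι : ∀ j, GG (k j) (N j) →* E} (hΓ : ICC Γ)
    (p : ∀ i, Γ →* G i) (μ : ∀ i, Measure (G i)) [∀ i, (μ i).IsHaarMeasure]
    [∀ i, (μ i).IsMulRightInvariant]
    (π : ∀ i, E →* G i) (hπ : ∀ i, Continuous (π i)) (hp : ∀ i (γ : Γ), p i γ = π i γ)
    (hι : ∀ i j g, π i (ι j g) = 1)
    (hsp : ∀ i i', i ≠ i' → ∀ k : G i, ∃ e, π i e = k ∧ π i' e = 1)
    (m : Measure E) (lat : Lat Γ.subtype m)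
    (fac : ∀ i, FacV (G i)) (hd : ∀ i, DenseRange (p i)) (he : ∀ i k, i ≠ k → Esc (p i) (p k))
    (erg : ErgAllT p) (ne : NeAllT p μ) : KCalAll ι Γ p := by
  intro Λ _ _ hΛ I _ α hα
  exact kcal_top B hΓ p μ π hπ hp hι hsp m lat fac hd he hΛ hα
    (fun i β hβ => erg Λ I _ hα hΛ i β hβ) (fun i β hβ => ne Λ I _ hα hΛ i β hβ)

end top

end Vale.Agent.P092.H35.Mx
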