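import Vale.Agent.P092.VR.QMain

/-!
P092, project MIX (helper35), rows M2 + M3: the calculus of one matched pair of places on the space
of a frame (`QCal`), the statement of the local theorem (`PairStmt`), and the assembly over all
places and both legs, for a lattice in any group `E` over the places (`qcal_all`).
-/

set_option linter.all false

open scoped InnerProductSpace ENNReal ZeroAtInfty
open Filter Topology ContinuousLinearMap MeasureTheory TopologicalSpace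

namespace Vale.Agent.P092.H35.Mx

section qcal

variable {E : Type} [Group E] {Γ : Subgroup E} {X K T : Type} [Group X] [NormedAddCommGroup K]
  [InnerProductSpace ℂ K] [CompleteSpace K] [Group T] [TopologicalSpace T]

/-- The calculus of one matched pair of places on the space of a frame `(ρ, V)`: `f : X →* Γ` is
the coordinate of the leg, `t : E →* T` the coordinate of the source group. -/
structure QCal (t : E →* T) (p : Γ →* T) (V : Γ →* (K →L[ℂ] K)) (f : X →* Γ)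
    (ρ : X →* (K →L[ℂ] K)) (P : C₀(T, ℂ) →⋆ₙₐ[ℂ] (K →L[ℂ] K)) : Prop where
  nd : ∀ ξ, (∀ ψ, P ψ ξ = 0) → ξ = 0
  cov : ∀ x (ψ ψ' : C₀(T, ℂ)), (∀ y, ψ' y = ψ ((p (f x))⁻¹ * y)) → ρ x * P ψ * ρ x⁻¹ = P ψ'
  vcov : ∀ (γ : Γ) (ψ ψ' : C₀(T, ℂ)), (∀ y, ψ' y = ψ (y * t γ)) → V γ * P ψ * V γ⁻¹ = P ψ'

/-- The calculus commutes with the kernel of the coordinate of the leg. -/
theorem QCal.cmk {t : E →* T} {p : Γ →* T} {V : Γ →* (K →L[ℂ] K)} {f : X →* Γ}
    {ρ : X →* (K →L[ℂ] K)} {P : C₀(T, ℂ) →⋆ₙₐ[ℂ] (K →L[ℂ] K)} (h : QCal t p V f ρ P) {x : X}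
    (hx : f x = 1) (ψ : C₀(T, ℂ)) : Commute (ρ x) (P ψ) := by
  have h1 := h.cov x ψ ψ fun y => by rw [hx, map_one, inv_one, one_mul]
  have h2 : ρ x⁻¹ * ρ x = 1 := by rw [← map_mul, inv_mul_cancel, map_one]
  calc ρ x * P ψ = ρ x * P ψ * (ρ x⁻¹ * ρ x) := by rw [h2, mul_one]
    _ = ρ x * P ψ * ρ x⁻¹ * ρ x := by simp only [mul_assoc]
    _ = P ψ * ρ x := by rw [h1]

end qcal

/-! ### The assembly on the space of a frame -/

open Vale.Agent.P092.H160 (Cmm Ell2)
open Vale.Agent.P092.QT.H156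
open Vale.Agent.P092.QT.H156.Sm (Frm Fd Smo ip)
open Vale.Agent.P092.QT.H715.Q (Dbl fl F1 TwS)
open Vale.Agent.P092.PA (Lat)
open Vale.Agent.P092.VR (FacV)
open Vale.Agent.P092.QT.Q (Esc)

/-- [PAIR] the calculus of one matched pair of places (`p` the target place, `κ` the source
place). -/
def PairStmt : Prop :=
  ∀ (Γ X Y K G H : Type) [Group Γ] [Countable Γ] [Group X] [Countable X] [Group Y] [Countable Y]
    [NormedAddCommGroup K] [InnerProductSpace ℂ K] [CompleteSpace K]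
    [Group G] [TopologicalSpace G] [IsTopologicalGroup G] [LocallyCompactSpace G]
    [SecondCountableTopology G] [T2Space G] [MeasurableSpace G] [BorelSpace G]
    [Group H] [TopologicalSpace H] [IsTopologicalGroup H] [LocallyCompactSpace H]
    [SecondCountableTopology H] [T2Space H] [MeasurableSpace H] [BorelSpace H]
    (V W : Γ →* (K →L[ℂ] K)) (f : X →* Γ) (ρ : X →* (K →L[ℂ] K)) (f' : Y →* Γ)
    (ρ' : Y →* (K →L[ℂ] K)) (ω ω' : K) (p : Γ →* G) (κ : Γ →* H)
    (μ : Measure G) [μ.IsHaarMeasure] [μ.IsMulRightInvariant]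
    (ν : Measure H) [ν.IsHaarMeasure] [ν.IsMulRightInvariant],
    Dbl V W f ρ f' ρ' ω ω' → DenseRange p → DenseRange κ → DenseRange (p.comp f) → FacV G →
    FacV H → F1 (p.comp f) κ ρ V ω μ → F1 (κ.comp f') p ρ' W ω' ν →
    (∃ a, TwS V f ρ ω ω' p κ μ ν a ∧ a ≠ 0) →
    (∀ a b, TwS V f ρ ω ω' p κ μ ν a → TwS V f ρ ω ω' p κ μ ν b → ∀ x y, a x * b y = b y * a x) →
    ∃ (P : C₀(G, ℂ) →⋆ₙₐ[ℂ] (K →L[ℂ] K)) (th : H →* G), Continuous th ∧
      (∀ ξ, (∀ ψ, P ψ ξ = 0) → ξ = 0) ∧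
      (∀ ψ (S : K →L[ℂ] K), (∀ a, TwS V f ρ ω ω' p κ μ ν a → ∀ x, S * a x = a x * S) →
        S * P ψ = P ψ * S) ∧
      (∀ x (ψ ψ' : C₀(G, ℂ)), (∀ y, ψ' y = ψ ((p (f x))⁻¹ * y)) → ρ x * P ψ * ρ x⁻¹ = P ψ') ∧
      ∀ g (ψ ψ' : C₀(G, ℂ)), (∀ y, ψ' y = ψ (y * th (κ g))) → V g * P ψ * V g⁻¹ = P ψ'

section asm

variable {E : Type} [Group E] [TopologicalSpace E] [IsTopologicalGroup E] [LocallyCompactSpace E]
  [SecondCountableTopology E] [T2Space E] [MeasurableSpace E] [BorelSpace E] {Γ : Subgroup E}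
  [Countable Γ] {X Y K I : Type} [Group X] [Countable X] [Group Y] [Countable Y]
  [NormedAddCommGroup K] [InnerProductSpace ℂ K] [CompleteSpace K] [Fintype I] {G : I → Type}
  [∀ i, Group (G i)] [∀ i, TopologicalSpace (G i)] [∀ i, IsTopologicalGroup (G i)]
  [∀ i, LocallyCompactSpace (G i)] [∀ i, SecondCountableTopology (G i)] [∀ i, T2Space (G i)]
  [∀ i, MeasurableSpace (G i)] [∀ i, BorelSpace (G i)]

/-- **The calculi of all places and both legs on the space of the frame.** -/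
theorem qcal_all (B : VR.Q.Blk) (S : PairStmt) {V : Γ →* (K →L[ℂ] K)}
    {R : Bool → Γ →* (K →L[ℂ] K)}
    {f : Bool → X →* Γ} {ρ : X →* (K →L[ℂ] K)} {f' : Bool → Y →* Γ}
    {ρ' : Bool → Y →* (K →L[ℂ] K)} {ω : K} {ω' : Bool → K} (p : ∀ i, Γ →* G i)
    (μ : ∀ i, Measure (G i)) [∀ i, (μ i).IsHaarMeasure] [∀ i, (μ i).IsMulRightInvariant]
    (π : ∀ i, E →* G i) (hπ : ∀ i, Continuous (π i)) (hp : ∀ i (γ : Γ), p i γ = π i γ)
    (hsp : ∀ i i', i ≠ i' → ∀ k : G i, ∃ e, π i e = k ∧ π i' e = 1)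
    (m : Measure E) (lat : Lat Γ.subtype m)
    (fac : ∀ i, FacV (G i)) (hd : ∀ i, DenseRange (p i)) (he : ∀ i k, i ≠ k → Esc (p i) (p k))
    (h : ∀ l, Dbl V (R l) (f l) ρ (f' l) (ρ' l) ω (ω' l))
    (hR : ∀ g k, R false g * R true k = R true k * R false g)
    (hρ : ∀ x, ∃ n, (∀ l, f l n = 1) ∧ ρ x = R false (f false x) * R true (f true x) * ρ n)
    (hs : ∀ l, Function.Surjective (f l))
    (t : ∀ l i j, F1 ((p j).comp (f l)) (p i) ρ V ω (μ j))
    (t' : ∀ l i j, F1 ((p i).comp (f' l)) (p j) (ρ' l) (R l) (ω' l) (μ i))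
    (n : ∀ l i, ∃ j a, Smo ((p j).comp (f l)) (p i) ρ V ω (μ j) a ∧ a ≠ 0)
    (n' : ∀ l j, ∃ i b, Smo ((p i).comp (f' l)) (p j) (ρ' l) (R l) (ω' l) (μ i) b ∧ b ≠ 0) :
    ∃ (th : Bool → ∀ b, E →* G b) (P : Bool → ∀ b, C₀(G b, ℂ) →⋆ₙₐ[ℂ] (K →L[ℂ] K)),
      (∀ l b, Continuous (th l b)) ∧ (∀ l b e, (∀ i, π i e = 1) → th l b e = 1) ∧
      (∀ l b, QCal (th l b) (p b) V (f l) ρ (P l b)) ∧
      ∀ l b l' b' ψ φ, Commute (P l b ψ) (P l' b' φ) := by
  classical
  have hl := fun l => B.base.leg p μ (h l) hd he (t l) (t' l) (n l) (n' l)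
  choose σ hσ s using hl
  have hdd : ∀ l j, DenseRange ((p j).comp (f l)) := fun l j => by
    have e : Set.range ((p j).comp (f l)) = Set.range (p j) := by
      rw [MonoidHom.coe_comp]
      exact (hs l).range_comp _
    rw [DenseRange, e]
    exact hd j
  -- different source places
  have c3 : ∀ (l l' : Bool) (j k : I), σ l j ≠ σ l' k →
      ∀ a b, TwS V (f l) ρ ω (ω' l) (p j) (p (σ l j)) (μ j) (μ (σ l j)) a →
        TwS V (f l') ρ ω (ω' l') (p k) (p (σ l' k)) (μ k) (μ (σ l' k)) b →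
          ∀ x y, a x * b y = b y * a x := by
    intro l l' j k hne a b ha hb
    exact B.c3 Γ X Y K (G j) (G k) (G (σ l j)) (G (σ l' k)) E V (R l) (f l) ρ (f' l)
      (ρ' l) ω (ω' l) (p j) (p (σ l j)) (p (σ l' k)) ((p k).comp (f l')) Γ.subtype
      (π (σ l j)) (π (σ l' k)) (μ j) (μ k) (μ (σ l j)) m (h l)
      (hd _) (hd _) (hd _) (hdd _ _) (fac _) (fac _) (hπ _) (hπ _)
      (hsp _ _ hne) (fun g => hp _ g) (fun g => hp _ g) lat
      (t l _ _) (t' l _ _) (t l' _ _) (s l j) a b ha hb.smo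
  have c : ∀ (l l' : Bool) (j k : I),
      ∀ a b, TwS V (f l) ρ ω (ω' l) (p j) (p (σ l j)) (μ j) (μ (σ l j)) a →
        TwS V (f l') ρ ω (ω' l') (p k) (p (σ l' k)) (μ k) (μ (σ l' k)) b →
          ∀ x y, a x * b y = b y * a x := by
    intro l l' j k a b ha hb
    by_cases hne : σ l j = σ l' k
    · by_cases hl : l = l'
      · subst hl
        have hjk : j = k := hσ l hne
        subst hjk
        exact B.c1 Γ X Y K (G j) (G (σ l j)) V (R l) (f l) ρ (f' l) (ρ' l) ω (ω' l) (p j)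
          (p (σ l j)) (μ j) (μ (σ l j)) (h l) (hd _) (hd _) (fac _) (fac _) (t l _ _) (t' l _ _)
          (s l j) a b ha hb
      · have hs' := s l' k
        have t1 := t l' (σ l' k) k
        have t2 := t' l' (σ l' k) k
        rw [← hne] at hb hs' t1 t2
        have hρ' : ∀ x, ∃ n, f l n = 1 ∧ f l' n = 1 ∧
            ρ x = R l (f l x) * R l' (f l' x) * ρ n := by
          intro x
          obtain ⟨n, hn, e⟩ := hρ x
          refine ⟨n, hn l, hn l', ?_⟩
          rw [e]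
          cases l <;> cases l'
          · exact absurd rfl hl
          · rfl
          · rw [hR]
          · exact absurd rfl hl
        have hR' : ∀ g k, R l g * R l' k = R l' k * R l g := by
          intro g k
          cases l <;> cases l'
          · exact absurd rfl hl
          · exact hR _ _
          · exact (hR _ _).symm
          · exact absurd rfl hl
        exact B.c2 Γ X Y Y K (G j) (G k) (G (σ l j)) V (R l) (R l') (f l) (f l') ρ (f' l) (ρ' l)
          (f' l') (ρ' l') ω (ω' l) (ω' l') (p j) (p k) (p (σ l j)) (μ j) (μ k) (μ (σ l j)) (h l)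
          (h l') hR' hρ'
          (hd _) (hd _) (hd _) (fac _) (fac _) (fac _) (t l _ _) (t' l _ _) t1 t2 (s l j) hs'
          a b ha hb
    · exact c3 l l' j k hne a b ha hb
  have hP := fun l j => S Γ X Y K (G j) (G (σ l j)) V (R l) (f l) ρ (f' l) (ρ' l) ω (ω' l) (p j)
    (p (σ l j)) (μ j) (μ (σ l j)) (h l) (hd _) (hd _) (hdd l j) (fac _) (fac _) (t l _ _)
    (t' l _ _) (s l j) (c l l j j)
  choose P th ct nd bc cv vc using hP
  refine ⟨fun l b => (th l b).comp (π (σ l b)), P, fun l b => (ct l b).comp (hπ _),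
    fun l b e he => ?_, fun l b => ⟨nd l b, cv l b, fun γ ψ ψ' hψ => ?_⟩,
    fun l b l' b' ψ φ => ?_⟩
  · change th l b (π (σ l b) e) = 1
    rw [he, map_one]
  · refine vc l b γ ψ ψ' fun y => ?_
    rw [hψ, hp]
    rfl
  · refine (bc l b ψ (P l' b' φ) fun a ha x => ?_).symm
    exact (bc l' b' φ (a x) fun b₁ hb y => c l l' b b' a b₁ ha hb x y).symm

end asm

end Vale.Agent.P092.H35.Mx
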