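import Vale.Agent.P092.H515.LatSl
import Vale.Agent.P092.H305.Mx.GeoP

/-!
P092, [MIX] (S2) (helper35): if `Λ` is a lattice of `E` and `p : E → D` is a homomorphism such that
`p Λ` is discrete, then the elements of `ker p` which normalise `Λ ∩ ker p` form a set `C (Λ ∩ ker p)`,
`C` compact.
-/

set_option linter.all false

open MeasureTheory MeasureTheory.Measure Set Filter Topology
open scoped ENNReal NNReal Pointwise

namespace Vale.Agent.P092.H35.Mx

open Vale.Agent.P092.H515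

/-- a neighbourhood of one which isolates it in a discrete set -/
theorem nhd_of_disc {D : Type} [Group D] [TopologicalSpace D] {S : Set D} (h1 : (1 : D) ∈ S)
    (h : DiscreteTopology S) : ∃ U ∈ 𝓝 (1 : D), ∀ x ∈ S, x ∈ U → x = 1 := by
  have h2 : IsOpen ({⟨1, h1⟩} : Set S) := isOpen_discrete _
  obtain ⟨U, hU, e⟩ := isOpen_induced_iff.1 h2
  refine ⟨U, hU.mem_nhds ?_, fun x hx hxU => ?_⟩
  · have h3 : (⟨1, h1⟩ : S) ∈ Subtype.val ⁻¹' U := by rw [e]; rfl
    exact h3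
  · have h3 : (⟨x, hx⟩ : S) ∈ Subtype.val ⁻¹' U := hxU
    rw [e] at h3
    exact congrArg Subtype.val h3

section one

variable {E : Type} [Group E] [TopologicalSpace E] [IsTopologicalGroup E] [LocallyCompactSpace E]
  [SecondCountableTopology E] [T2Space E] {Λ : Subgroup E}

/-- **Packing.** -/
theorem cob (h : IsLattice Λ) {D : Type} [Group D] [TopologicalSpace D] (p : E →* D)
    (hp : Continuous p) (hd : ∃ U ∈ 𝓝 (1 : D), ∀ l ∈ Λ, p l ∈ U → p l = 1) :
    ∃ C : Set E, IsCompact C ∧ ∀ y, p y = 1 → (∀ k ∈ Λ, p k = 1 → y * k * y⁻¹ ∈ Λ) →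
      ∃ c ∈ C, ∃ k ∈ Λ, p k = 1 ∧ y = c * k := by
  classical
  letI : MeasurableSpace E := borel E
  haveI : BorelSpace E := ⟨rfl⟩
  obtain ⟨μ, hμ⟩ : ∃ μ : Measure E, μ = haar := ⟨_, rfl⟩
  have hH : IsHaarMeasure μ := by rw [hμ]; infer_instance
  have hR : IsMulRightInvariant μ := h.rightInv μ
  obtain ⟨F, hFm, hF, -, hFu, hFd⟩ := h.exists_fdom_right μ
  have hdisc := h.disc
  letI : MeasurableSpace (E ⧸ Λ) := borel _
  haveI : BorelSpace (E ⧸ Λ) := ⟨rfl⟩
  have hcount : Countable Λ := countable_lat Λ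
  have hcount' : Countable Λ.op := Λ.equivOp.symm.injective.countable
  obtain ⟨U₁, hU₁, hU₁'⟩ := nhd_of_disc (S := (Λ : Set E)) Λ.one_mem hdisc
  obtain ⟨U₂, hU₂, hU₂'⟩ := hd
  obtain ⟨K₀, hK₀, hK₀'⟩ := exists_compact_mem_nhds (1 : E)
  have hU : U₁ ∩ (p ⁻¹' U₂) ∩ K₀ ∈ 𝓝 (1 : E) :=
    inter_mem (inter_mem hU₁ (hp.continuousAt.preimage_mem_nhds (by rwa [map_one]))) hK₀'
  obtain ⟨V, hV, hVc, hVi, hVV⟩ := exists_closed_nhds_one_inv_eq_mul_subset hU
  have h1V : (1 : E) ∈ V := mem_of_mem_nhds hV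
  have hVK : IsCompact V := hK₀.of_isClosed_subset hVc fun x hx =>
    (hVV (by simpa using mul_mem_mul hx h1V)).2
  have hVV' : ∀ v ∈ V, ∀ v' ∈ V, v⁻¹ * v' ∈ U₁ ∩ (p ⁻¹' U₂) ∩ K₀ := fun v hv v' hv' =>
    hVV (mul_mem_mul (by rw [← hVi]; exact Set.inv_mem_inv.2 hv) hv')
  have hVm : MeasurableSet V := hVc.measurableSet
  have hV0 : μ V ≠ 0 := (measure_pos_of_mem_nhds μ hV).ne'
  -- good families
  obtain ⟨N, hN⟩ : ∃ N : Set E, N = {y | p y = 1 ∧ ∀ k ∈ Λ, p k = 1 → y * k * y⁻¹ ∈ Λ} := ⟨_, rfl⟩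
  obtain ⟨P, hP⟩ : ∃ P : Finset E → Prop, P = fun s => (∀ y ∈ s, y ∈ N) ∧
      ∀ y ∈ s, ∀ z ∈ s, y ≠ z → ∀ k ∈ Λ, p k = 1 → ∀ v ∈ V, ∀ v' ∈ V, v * y * k ≠ v' * z := ⟨_, rfl⟩
  have bound : ∀ s, P s → (s.card : ℝ≥0∞) * μ V ≤ μ F := by
    intro s hs
    rw [hP] at hs
    obtain ⟨hs1, hs2⟩ := hs
    by_contra hlt
    rw [not_le] at hlt
    obtain ⟨A, hA⟩ : ∃ A : Set E, A = ⋃ y ∈ s, (fun x => x * y⁻¹) ⁻¹' V := ⟨_, rfl⟩
    have hAm : MeasurableSet A := by
      rw [hA]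
      exact s.measurableSet_biUnion fun y _ => hVm.preimage (measurable_mul_const _)
    have hμA : μ A = s.card * μ V := by
      rw [hA, measure_biUnion_finset (fun y hy z hz hyz => ?_)
        fun y _ => hVm.preimage (measurable_mul_const _)]
      · simp only [measure_preimage_mul_right, Finset.sum_const, nsmul_eq_mul]
      · refine Set.disjoint_left.2 fun x hx hx' => ?_
        refine hs2 y hy z hz hyz 1 Λ.one_mem (map_one p) _ hx _ hx' ?_
        group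
    obtain ⟨x, hx, z, hz, g, hg, hxz⟩ := hFd.exists_ne_one_smul_eq hAm.nullMeasurableSet
      (by rw [hμA]; exact hlt)
    rw [hA] at hx hz
    obtain ⟨a, ha, hxa⟩ := Set.mem_iUnion₂.1 hx
    obtain ⟨b, hb, hzb⟩ := Set.mem_iUnion₂.1 hz
    obtain ⟨l, hl, hle⟩ : ∃ l ∈ Λ, x * l = z ∧ (l = 1 → g = 1) := by
      refine ⟨g.1.unop, g.2, hxz, fun h0 => ?_⟩
      apply Subtype.ext
      apply MulOpposite.unop_injective
      exact h0
    have h1 : (x * a⁻¹) * (a * l) = (z * b⁻¹) * b := by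
      rw [← hle.1]; group
    have h2 := hVV' _ hxa _ hzb
    have ha1 := hs1 a ha
    have hb1 := hs1 b hb
    rw [hN] at ha1 hb1
    have h3 : p l = 1 := by
      refine hU₂' l hl ?_
      have h4 : p l = p ((x * a⁻¹)⁻¹ * (z * b⁻¹)) := by
        have h5 : (x * a⁻¹)⁻¹ * (z * b⁻¹) = a * l * b⁻¹ := by rw [← hle.1]; group
        rw [h5, map_mul, map_mul, map_inv, ha1.1, hb1.1, inv_one, mul_one, one_mul]
      rw [h4]
      exact h2.1.2
    by_cases hab : a = b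
    · subst hab
      have h4 : (x * a⁻¹)⁻¹ * (z * a⁻¹) = a * l * a⁻¹ := by rw [← hle.1]; group
      have h5 : a * l * a⁻¹ = 1 := by
        refine hU₁' _ (ha1.2 l hl h3) ?_
        rw [← h4]
        exact h2.1.1
      refine hg (hle.2 ?_)
      have h6 : l = a⁻¹ * (a * l * a⁻¹) * a := by group
      rw [h6, h5]
      group
    · refine hs2 a ha b hb hab l hl h3 _ hxa _ hzb ?_
      rw [← hle.1]; group
  -- conclusion
  by_contra hno
  push Not at hno
  have step : ∀ s, P s → ∃ y, y ∉ s ∧ P (insert y s) := by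
    intro s hs
    have hs' := hs
    rw [hP] at hs
    obtain ⟨hs1, hs2⟩ := hs
    have hC : IsCompact (⋃ y ∈ s, (fun x => x * y) '' (V * V)) :=
      s.isCompact_biUnion fun y _ => (hVK.mul hVK).image (continuous_mul_const _)
    obtain ⟨y, hy1, hy2, hy3⟩ := hno _ hC
    have key : ∀ z ∈ s, ∀ k ∈ Λ, p k = 1 → ∀ v ∈ V, ∀ v' ∈ V, v * z * k ≠ v' * y := by
      intro z hz k hk hk1 v hv v' hv' e
      refine hy3 (v'⁻¹ * v * z) ?_ k hk hk1 ?_
      · refine Set.mem_iUnion₂.2 ⟨z, hz, v'⁻¹ * v, mul_mem_mul ?_ hv, rfl⟩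
        rw [← hVi]
        exact Set.inv_mem_inv.2 hv'
      · have h5 : v'⁻¹ * v * z * k = v'⁻¹ * (v * z * k) := by group
        rw [h5, e]
        group
    have key' : ∀ z ∈ s, ∀ k ∈ Λ, p k = 1 → ∀ v ∈ V, ∀ v' ∈ V, v * y * k ≠ v' * z := by
      intro z hz k hk hk1 v hv v' hv' e
      refine key z hz k⁻¹ (Λ.inv_mem hk) (by rw [map_inv, hk1, inv_one]) v' hv' v hv ?_
      rw [← e]
      group
    refine ⟨y, fun hys => ?_, ?_⟩
    · exact key y hys 1 Λ.one_mem (map_one p) 1 h1V 1 h1V (by rw [mul_one])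
    · rw [hP]
      refine ⟨fun z hz => ?_, fun a ha b hb hab k hk hk1 v hv v' hv' => ?_⟩
      · rcases Finset.mem_insert.1 hz with rfl | hz
        · rw [hN]
          exact ⟨hy1, hy2⟩
        · exact hs1 z hz
      · rcases Finset.mem_insert.1 ha with ha' | ha'
        · rcases Finset.mem_insert.1 hb with hb' | hb'
          · exact absurd (ha'.trans hb'.symm) hab
          · rw [ha']
            exact key' b hb' k hk hk1 v hv v' hv'
        · rcases Finset.mem_insert.1 hb with hb' | hb'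
          · rw [hb']
            exact key a ha' k hk hk1 v hv v' hv'
          · exact hs2 a ha' b hb' hab k hk hk1 v hv v' hv'
  have all : ∀ n : ℕ, ∃ s, P s ∧ s.card = n := by
    intro n
    induction n with
    | zero =>
      refine ⟨∅, ?_, rfl⟩
      rw [hP]
      exact ⟨fun y hy => absurd hy (Finset.notMem_empty y),
        fun y hy => absurd hy (Finset.notMem_empty y)⟩
    | succ n ih =>
      obtain ⟨s, hs, hn⟩ := ih
      obtain ⟨y, hy, hs'⟩ := step s hs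
      exact ⟨insert y s, hs', by rw [Finset.card_insert_of_notMem hy, hn]⟩
  have hlim : ∀ n : ℕ, (n : ℝ≥0∞) ≤ μ F / μ V := by
    intro n
    obtain ⟨s, hs, hn⟩ := all n
    rw [ENNReal.le_div_iff_mul_le (Or.inl hV0) (Or.inl hVK.measure_lt_top.ne), ← hn]
    exact bound s hs
  have hfin : μ F / μ V ≠ ∞ := (ENNReal.div_lt_top hF.ne hV0).ne
  obtain ⟨n, hn⟩ := ENNReal.exists_nat_gt hfin
  exact absurd (hlim n) (not_le.2 hn)

end one

/-! ### Products -/

section prod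

variable {Γ GD GN : Type} [Group Γ] [Group GD] [TopologicalSpace GD] [IsTopologicalGroup GD]
  [LocallyCompactSpace GD] [SecondCountableTopology GD] [T2Space GD]
  [Group GN] [TopologicalSpace GN] [IsTopologicalGroup GN]
  [LocallyCompactSpace GN] [SecondCountableTopology GN] [T2Space GN]

/-- **(S2), two factors.** -/
theorem cob_prod (qD : Γ →* GD) (qN : Γ →* GN) (hl : IsLattice (qD.prod qN).range)
    (hd : DiscreteTopology (Set.range qD)) :
    ∃ C : Set GN, IsCompact C ∧ ∀ y, ∃ n, qD n = 1 ∧ qN (n * y) ∈ C := by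
  obtain ⟨U, hU, hU'⟩ := nhd_of_disc (S := Set.range qD) ⟨1, map_one qD⟩ hd
  obtain ⟨C, hC, hC'⟩ := cob hl (MonoidHom.fst GD GN) continuous_fst
    ⟨U, hU, by rintro _ ⟨g, rfl⟩ hg; exact hU' _ ⟨g, rfl⟩ hg⟩
  refine ⟨Prod.snd '' C⁻¹, hC.inv.image continuous_snd, fun y => ?_⟩
  obtain ⟨c, hc, k, ⟨n, rfl⟩, hn, e⟩ := hC' ((1 : GD), qN y⁻¹) rfl (by
    rintro _ ⟨g, rfl⟩ hg
    have hg' : qD g = 1 := hg
    refine ⟨y⁻¹ * g * y, Prod.ext ?_ ?_⟩
    · change qD (y⁻¹ * g * y) = (1 : GD) * qD g * (1 : GD)⁻¹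
      rw [map_mul, map_mul, hg', map_inv]
      group
    · change qN (y⁻¹ * g * y) = qN y⁻¹ * qN g * (qN y⁻¹)⁻¹
      rw [map_mul, map_mul, map_inv, inv_inv])
  have hn' : qD n = 1 := hn
  refine ⟨n, hn', c⁻¹, Set.inv_mem_inv.2 hc, ?_⟩
  have e2 : qN y⁻¹ = c.2 * qN n := congrArg Prod.snd e
  change (c⁻¹).2 = qN (n * y)
  have e3 : c.2 = qN y⁻¹ * (qN n)⁻¹ := by rw [e2]; group
  rw [Prod.snd_inv, e3, map_mul, map_inv]
  group

end prod

section pi

variable {Γ X : Type} [Group Γ] [Fintype X] {G : X → Type} [∀ x, Group (G x)]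
  [∀ x, TopologicalSpace (G x)] [∀ x, IsTopologicalGroup (G x)] [∀ x, LocallyCompactSpace (G x)]
  [∀ x, SecondCountableTopology (G x)] [∀ x, T2Space (G x)]

/-- **(S2), any finite product**: `P` the places with a discrete projection. -/
theorem cob_pi (q : Γ →* ∀ x, G x) (hl : IsLattice q.range) (P : X → Prop)
    (hd : ∀ x, P x → DiscreteTopology (Set.range fun g => q g x)) :
    ∃ C : ∀ x, Set (G x), (∀ x, IsCompact (C x)) ∧
      ∀ y, ∃ n, (∀ x, P x → q n x = 1) ∧ ∀ x, ¬ P x → q (n * y) x ∈ C x := by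
  classical
  have h1 : ∀ x : {x // P x}, ∃ U ∈ 𝓝 (1 : G x), ∀ g, q g x ∈ U → q g x = 1 := fun x => by
    obtain ⟨U, hU, hU'⟩ := nhd_of_disc (S := Set.range fun g => q g x.1)
      ⟨1, by change q 1 x.1 = 1; rw [map_one]; rfl⟩ (hd x.1 x.2)
    exact ⟨U, hU, fun g hg => hU' _ ⟨g, rfl⟩ hg⟩
  choose U hU hU' using h1
  obtain ⟨p, hp⟩ : ∃ p : (∀ x, G x) →* ∀ x : {x // P x}, G x, ∀ g x, p g x = g x.1 :=
    ⟨{ toFun := fun g x => g x.1, map_one' := rfl, map_mul' := fun _ _ => rfl }, fun _ _ => rfl⟩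
  have hpc : Continuous p := by
    refine continuous_pi fun x => ?_
    simp only [hp]
    exact continuous_apply x.1
  have hp1 : ∀ g, p g = 1 ↔ ∀ x, P x → g x = 1 := fun g => by
    constructor
    · intro h x hx
      rw [← hp g ⟨x, hx⟩, h]; rfl
    · intro h
      funext x
      rw [hp]
      exact h x.1 x.2
  obtain ⟨C, hC, hC'⟩ := cob hl p hpc ⟨Set.pi Set.univ U,
    set_pi_mem_nhds Set.finite_univ fun x _ => hU x, by
      rintro _ ⟨g, rfl⟩ hg
      rw [hp1]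
      intro x hx
      have h2 : p (q g) ⟨x, hx⟩ ∈ U ⟨x, hx⟩ := hg ⟨x, hx⟩ (Set.mem_univ _)
      rw [hp] at h2
      exact hU' ⟨x, hx⟩ g h2⟩
  refine ⟨fun x => (fun g => g x) '' C⁻¹, fun x => hC.inv.image (continuous_apply x), fun y => ?_⟩
  obtain ⟨c, hc, k, ⟨n, rfl⟩, hn, e⟩ := hC' (fun x => if P x then 1 else q y⁻¹ x)
    ((hp1 _).2 fun x hx => if_pos hx) (by
    rintro _ ⟨g, rfl⟩ hg
    rw [hp1] at hg
    refine ⟨y⁻¹ * g * y, ?_⟩
    funext x
    by_cases hx : P x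
    · simp only [map_mul, map_inv, Pi.mul_apply, Pi.inv_apply, if_pos hx, hg x hx]
      group
    · simp only [map_mul, map_inv, Pi.mul_apply, Pi.inv_apply, if_neg hx]
      group)
  rw [hp1] at hn
  refine ⟨n, hn, fun x hx => ⟨c⁻¹, Set.inv_mem_inv.2 hc, ?_⟩⟩
  have e2 : q y⁻¹ x = c x * q n x := by
    have e3 := congrFun e x
    simp only [if_neg hx, Pi.mul_apply] at e3
    exact e3
  have e3 : c x = q y⁻¹ x * (q n x)⁻¹ := by rw [e2]; group
  change (c⁻¹) x = q (n * y) x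
  rw [Pi.inv_apply, e3, map_mul, map_inv, Pi.mul_apply, Pi.inv_apply]
  group

/-- **The record `Pas` of helper305 from a lattice.** -/
theorem pas (q : Γ →* ∀ x, G x) (hi : Function.Injective q) (hl : IsLattice q.range)
    (P : X → Prop) (hd : ∀ x, P x → DiscreteTopology (Set.range fun g => q g x))
    {Γ' : Type} [Group Γ'] (p : Γ →* Γ') (hs : Function.Surjective p)
    (hk : ∀ n, p n = 1 ↔ ∀ x, P x → q n x = 1) (s₀ : Γ → ℝ)
    (h1 : ∀ R, ∃ C : ∀ x, Set (G x), (∀ x, IsCompact (C x)) ∧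
      ∀ g, s₀ g ≤ R → ∀ x, ¬ P x → q g x ∈ C x)
    (h2 : ∀ C : ∀ x, Set (G x), (∀ x, IsCompact (C x)) →
      ∃ R, ∀ g, (∀ x, ¬ P x → q g x ∈ C x) → s₀ g ≤ R) : H305.Mx.Pas p s₀ where
  surj := hs
  mul := fun R => by
    obtain ⟨C, hC, hC'⟩ := h1 R
    obtain ⟨R', h⟩ := h2 (fun x => C x * C x) fun x => (hC x).mul (hC x)
    refine ⟨R', fun x y hx hy => h _ fun z hz => ?_⟩
    rw [map_mul, Pi.mul_apply]
    exact mul_mem_mul (hC' x hx z hz) (hC' y hy z hz)
  inv := fun R => by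
    obtain ⟨C, hC, hC'⟩ := h1 R
    obtain ⟨R', h⟩ := h2 (fun x => (C x)⁻¹) fun x => (hC x).inv
    refine ⟨R', fun x hx => h _ fun z hz => ?_⟩
    rw [map_inv, Pi.inv_apply]
    exact Set.inv_mem_inv.2 (hC' x hx z hz)
  ker := fun R => by
    classical
    obtain ⟨C, hC, hC'⟩ := h1 R
    have hdi := hl.disc
    letI : MeasurableSpace (∀ x, G x) := borel _
    haveI : BorelSpace (∀ x, G x) := ⟨rfl⟩
    obtain ⟨B, hB⟩ : ∃ B : ∀ x, Set (G x), ∀ x, B x = if P x then {1} else C x := ⟨_, fun _ => rfl⟩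
    have hBc : ∀ x, IsCompact (B x) := fun x => by
      rw [hB]
      split_ifs
      · exact isCompact_singleton
      · exact hC x
    have hf := finite_of_compact q.range (isCompact_univ_pi hBc)
    refine (hf.preimage (f := q.rangeRestrict) fun a _ b _ e => hi (congrArg Subtype.val e)).subset
      fun n hn => ?_
    change q n ∈ Set.pi Set.univ B
    intro x _
    rw [hB]
    by_cases hx : P x
    · rw [if_pos hx]
      exact (hk n).1 hn.1 x hx
    · rw [if_neg hx]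
      exact hC' n hn.2 x hx
  cob := by
    obtain ⟨C, hC, hC'⟩ := cob_pi q hl P hd
    obtain ⟨C₀, h⟩ := h2 C hC
    refine ⟨C₀, fun y => ?_⟩
    obtain ⟨n, h3, h4⟩ := hC' y
    exact ⟨n, (hk n).2 h3, h _ h4⟩

end pi

end Vale.Agent.P092.H35.Mx
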